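import Crest.Agent.R330.BL.One

/-!
# Row 330, block BL: the light inequality (interface; statements frozen)
-/

set_option autoImplicit false
set_option linter.unusedSectionVars false

noncomputable section

open MeasureTheory Filter Topology
open scoped InnerProductSpace ContDiff Matrix
open Crest.MathPhysics.MatrixQM (GammaNine)

namespace Crest.Agent.R330

variable {E Z L H F : Type}
  [NormedAddCommGroup E] [InnerProductSpace ℝ E] [FiniteDimensional ℝ E]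
  [NormedAddCommGroup Z] [InnerProductSpace ℝ Z] [FiniteDimensional ℝ Z]
  [NormedAddCommGroup L] [InnerProductSpace ℝ L] [FiniteDimensional ℝ L]
  [NormedAddCommGroup H] [InnerProductSpace ℝ H] [FiniteDimensional ℝ H]
  [NormedAddCommGroup F] [InnerProductSpace ℂ F] [FiniteDimensional ℂ F]
  [MeasurableSpace E] [BorelSpace E] [MeasurableSpace Z] [BorelSpace Z]
  [MeasurableSpace L] [BorelSpace L] [MeasurableSpace H] [BorelSpace H]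
  {P : Type} [Fintype P] {𝔤 : Lie E} (D : Levi 𝔤 Z L H P) (C : Cl (Th E) F) (σ : Spn)

namespace Levi

/-- Hardy, pair-Hardy, `ε`-gap and tails for the effective problem. -/
theorem light (hT : TailIneq D.𝔩 (D.CL C) σ) (hG : GapIneq D.𝔩 (D.CL C) σ) :
    ∃ c β ε₁ : ℝ, 0 < c ∧ 0 < β ∧ 0 < ε₁ ∧ ε₁ ≤ 1 ∧ ∀ κ, 1 ≤ κ → ∃ θ₀ : ℝ, 0 < θ₀ ∧
      ∀ θ, 0 < θ → θ ≤ θ₀ → ∀ lm, 0 < lm → ∃ R₀ : ℝ, ∀ R, R₀ ≤ R → ∀ ε k : ℝ, 0 ≤ ε → ε ≤ ε₁ →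
        ∀ (𝒱 : Wts) (f : X Z × X L → F), D.Eff C σ.G 𝒱 κ θ R f →
          (ε = 0 ∨ (0 ≤ k ∧ (V0, k) ∈ 𝒱)) →
          ∫ q, D.WL (6 / 5) c β lm ε q.1 q.2 * ‖f q‖ ^ 2 ≤ ∫ q, ‖D.Qlight C σ ε f q‖ ^ 2 := by
  obtain ⟨c, β, ε₁, hc, hβ, hε₁, h1, h⟩ := BL.one D C σ hT hG
  refine ⟨c, β, ε₁, hc, hβ, hε₁, h1, fun κ hκ => ?_⟩
  obtain ⟨θ₀, hθ₀, h⟩ := h κ hκ
  refine ⟨θ₀, hθ₀, fun θ _ hθ lm hlm => ?_⟩
  obtain ⟨R₀, hR₀, h⟩ := h θ hθ lm hlm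
  refine ⟨R₀, fun R hR ε k hε hε' 𝒱 f hf hk => ?_⟩
  obtain hk | hk := hk
  · exact (h R hR ε k hε hε' 𝒱 f hf).2 (.inl hk)
  obtain ⟨c1, i1, -⟩ := BL.split D C σ hf (hR₀.trans_le hR) ε
  have p1 := (BL.circ (D.CL C) σ.G).parseval hf.1.1.continuous
    (fun q => BL.WL_nonneg D (by norm_num) hc.le hβ.le hε lm q.1 q.2) (BL.WL_meas D (6 / 5) c β lm ε)
    (fun t q => by simp only [WL, BL.Circ.R_norm]) (h R hR ε k hε hε' 𝒱 f hf).1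
  have p2 := (BL.circ (D.CL C) σ.G).parseval c1 (W := fun _ => 1) (fun _ => zero_le_one) measurable_const
    (fun _ _ => rfl) (by simpa using i1)
  simp only [one_mul, ← BL.Qlight_comp D C σ ε hf.1.1 c1] at p2
  refine hasSum_le (fun j => ?_) p1 p2
  obtain ⟨h2, h3⟩ := BL.eff_comp D C hf hk.2 j
  exact (h R hR ε k hε hε' _ _ h2).2 (.inr ⟨hk.1, rfl, j, h3⟩)

end Levi

end Crest.Agent.R330

end
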