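/-!
# Row 330 — blueprint (paper proof).  Owner helper26.

Notation: `Q_u = -i θ(c_u e)∂_e + θ(w_u)`, `Q_ε = Q_s + εθ(c_s V₀x)`, `ρ = ‖x‖`, `φ = x 8`,
`Z` = the first 8 matrices, `S(A) = ½Σθ(Au)θ(u)`, Gauss law `∂_{ξ·x}ψ = S(ad ξ)ψ`,
weight `k`: `∂_{Vx}ψ = S(σV)ψ + ikψ`.  All files `I*.lean` are interfaces: statements are frozen,
the owner of a block replaces the `sorry`s (put the proofs in `R330/<Block>/*.lean`, import them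
in the interface file).  DAG: Defs → IA1 → IG → {IA2, IFA}; IA2 → {IU, IB0, IMat};
IB0 → {IBF, IBC → IBI, IBL, IBU(IU)} → IBM; IH(IA2, IFA); INB(IBM, IH, IMat); IL1 → IL; IS(INB);
IM(INB, IL); IBr; S0512, S0513.

## Global structure
1. `Q_ε² = -½Δ + ½|w_ε|² + iS(𝒴) + εk` on gauge invariant weight-`k` functions (`Qd_sq`).
2. (L) For `ε = Λ` large and a compactly supported invariant `F` the neutral kernel of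
   `Q_{Λ,∇F}` is a line.  3. (H.ray_const) Porrati–Rozenberg: the same for all `ε > 0`, `F = 0`.
4. (NB) Hardy at infinity `‖Q_εψ‖² ≥ ∫(1/ρ² + cε)|ψ|²` for `εk ≥ 0`, small `ε`.
5. (H.limit_zero) duality lemma transfers existence `ε → 0` and uniqueness `0 → ε`.

## H (IH)
* `hh_ineq`: `d/dt⟨φ,U_tφ⟩ = ⟨φ,(S-∂_{Vx})U_tφ⟩`, `hh_identity`, `dirac_symm`, `norm_Qα_le`;
  `U_tφ ∈ Cls ∅` with the same `‖Q₀·‖² = ⟨·,H0·⟩` (`rot_cls`) and the same `‖|x|·‖`.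
* `ker0_sym`: apply to `χ_rφ_n`, `n → ∞`, then `r → ∞`: error `≤ C‖Ψ‖_{r≤|x|≤2r}‖Ψ‖`; so
  `⟨Ψ,U_tΨ⟩ = ‖Ψ‖²`, `U_tΨ = Ψ`.  `V = V₀` gives neutrality, `V = pl 0 1, t = 2π` evenness.
* `tail_ball`: apply `Hinf` to `(1-χ_R) w ψ`, `w` radial, `w = 1` on `|x| ≥ L`,
  `|∇w| ≤ (5/4) w/|x|`, `w ≤ C(|x|/L)^{5/4}`; `‖θ(c∇w)ψ‖² = ½|∇w|²|ψ|²`, `25/32 < 1`.
* `tailIneq`: cut at radius `ε^{-1/2}`: outside `1/|x|² ≤ ε`; inside use `ε = 0` and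
  `|Q₀ - Q_ε| ≤ 4ε|x|`.
* `gapIneq`, `gap_odd`: `U_{t₀}φ = -φ` (`t₀ = π/k`, resp. `2π`) gives `‖φ‖² ≤ C‖Q₀φ‖‖|x|φ‖` for
  `φ = χ_rψ`.  With `q = ‖Q_εψ‖`, `m = ‖ψ‖_{B_R}` the tails give `‖|x|φ‖ ≲ r²q + r^{3/4}m`,
  `‖Q₀φ‖ ≲ q + r^{-5/4}m + ε‖|x|φ‖`; choose `r` large, then `ε₁` small: `m ≲ q`.
* `limit_zero`: `gap_odd` ⇒ neutral zero modes of `Q_ε` are even (`wk_par`).  Existence: `φ = χ_rΨ_ε`,
  `|⟨φ,Q₀ψ⟩| ≤ ‖⟨x⟩([Q,χ_r] - εχ_rθ(cVx))Ψ_ε‖·‖ψ/⟨x⟩‖`, small by the tails (uniform in `ε`,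
  dyadic sum `‖Ψ_ε‖_{|x|≥r} ≲ r^{-1/4}‖Ψ_ε‖`), `duality`.  Uniqueness: two independent zero modes
  of `Q₀` are even and neutral (`ker0_sym`); `χ_rΨ_i`, `r = ε^{-1/2}`, are quasi-modes with error
  `o(√ε)` against the gap `cε`; `duality` gives two independent zero modes of `Q_ε`.
* `ray_const`: steps `|δ| ≤ δ₀(ε₁,ε₂)`, `e^{±δμ} ≤ e^{2|δ| zsq}`, `agmon`; the `F` step is bounded.

## U, BU (unfixing).  `N(x) = ∫_K p(kx)dk`; `∫p h = ∫N h` for invariant `h`;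
`∫_K div H = 0` by left invariance, so `piola` bounds `∇N`.  For `p = g(Φ) j χ` the bracket
`dj(τ)/j - tr(D⁻¹∂_τD) - tr(D⁻¹dΦ[·,η]x)` is continuous on the cone, homogeneous of degree `-1`,
linear in `v`, and vanishes at central points `x = z` (`D = M²`; `∂_{δz}`: `Σ 2m_p∂log M_p = ∂log j`;
`∂_{δl}`: `trL`; `∂_{δy}`: `hhh`; last term: trace of the skew map `pr_H ad η`); compactness of the
normalised tube gives the bound `η/ρ` for `θ` small.  (E1), (E2): `energy_weighted_Qd` with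
`ϖ = N_{wl}`, resp. `ϖ = N ρ^{-3}(1 + |w_ε|²/ρ)`, `densities`, `integral_avg`, `wd_tube`.

## BF (fine estimate).  Inner product `⟨·,·⟩_p = ∫ wtX ⟨·,·⟩`.  `h` runs over an ONB of `X H`,
`l` over ONBs of `X Z`, `X L`.  `D_L = Dop(asm z l 0)`, `η⁰_h = D_L⁻¹Φ(z,h)`,
`a h = perp z (h - (gH η⁰_h (iL l)))` (constant in `y`, tangent to the levels of `Φ`),
`A = -iΣθ(c h)∂_{a h} + θ(dw_z y + dw_l y)` (Γ_h-odd, symmetric for `⟨·,·⟩_p`),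
`B = -iΣθ(c l)∂_{κ l} + θ(εcVz + w^L_ε(l))` (Γ_h-even, `B* = B + O(1/ρ)` of order zero).
(i) `fderiv_slice`, `tau_eq`, `tube_bounds`, `wd_asm`:
`|Qu - (A+B)u| ≤ C(|y|/ρ |∇u| + (|y|² + 1/ρ + ε|y|)|u|)`, controlled by (E2) and
`ε²|y|² ≤ ε/2 + |y|⁴/2`.
(ii) `‖(A+B)u‖² = ‖Au‖² + ‖Bu‖² + 2Re⟨u⁺,{A,B}u⁻⟩ + 2Re⟨(B*-B)Au⁻,u⁺⟩` and
`|{A,B}v| ≤ C(|∇^⊥v|/ρ + |y||v|)` (heavy and light `θ` anticommute; `[a h, κ l]` is a transverse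
field of size `1/ρ`; homogeneity + compactness bound `∂a`).
(iii) `‖Av‖ ≥ ‖A₀v‖ - Cθ𝓔(v)`, `A₀ = -iΣθ(c h^⊥)∂_{h^⊥} + θ(𝒥Mc y^⊥)`,
`‖A₀v‖² = ½|∇^⊥v|² + ½|My^⊥v|² + ⟨iS(𝒥M)⟩ + rem` (`heavy_bilinear`, `heavy_first_order`, Gauss law
for `ξ = z 8`; `rem = -i∂_r v`, `r = ad(z 8) λΦ = O(1)` is gauge-like:
`|∂_r u⁻| ≤ C(θ|∇^⊥u⁻| + |y|/ρ|∇u| + |u|/ρ)`), oscillator bound (`vf_ineq`) `4Σm_pM_p` against
`iS_gap` with `Πu⁻ = 0`: `‖A₀u⁻‖² ≥ c𝓔(u⁻)² - …`.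

## BC.  Stein identity along `h^⊥` (weight `g(Φ)` is constant there) gives all moments.
`complete`: (E1) with `wl/‖z‖`, `edens_lower`, ground state transform `u = e^{-h}v`:
`∫wt[½|∇^⊥u|² + ½|My^⊥u|² - 4ΣmM|u|²] = ½∫wt e^{-2h}|∇^⊥v|²`; `poincare_qc` on the convex set
`{h ≤ H₀, ‖Φ‖ ≤ 1}` (scales `ρ^{-1/2}` transversally, `1/ρ` along `n`); outside `{h ≤ H₀}` use the
potential (Chebyshev, for `u` and for the Gaussian); fermion gap `ρ/κ (1-Π)`.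

## BI.  `T r = ν⁻¹∫wt e^{-h} Π r`.  Compare `ΠQ_L(Tu)` (`fderiv_red`) with `T(Qu)` (`fderiv_slice`,
`tau_eq`, `wd_asm`).  Heavy leading terms cancel (`fibre_ibp`, `Pi_heavy`).  Zero order terms of
size `1/ρ`: `-iθ(cδz)[(5/2)m∂log M - ½∂M|y^⊥|² + ∂Π] + iΣθ(ch)S(η⁰_h) - θ(w(y))`; on the Gaussian
⊗ vacuum part they average to zero (`moment_norm`: `5/2 - 2 = 1/2`, `Pi_cubic`, `moment_wpot`,
`fderiv_Pi`), on the defect they are `O(√δ/ρ)`.  Γ_h-odd operators only see `u⁻`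
(`ΠΓ = Π`): `θ(ch)∂_{perp(gH η l)}` and `θ(dw_l y)` cost `θ√B`.  `θ(ch)∂_{light part of gH η y}`
costs `ρ^{-3/2}|∇_L u|` (`DefIneq`); all other terms are `O(θρ^{-3/2}|∇u|)`, `O(θ/ρ)`,
`O(ρ^{-3/2})`, `O(ερ^{-1/2})` (`fibre_cs`, `grad_crude`).

## BL.  `‖Π(Q_cm+Q')f‖² = ‖ΠQ_cm f‖² + ‖Q'f‖²`.  `‖ΠQ_cm f‖² = ‖Q_cm f‖² - ‖Σθ(ce)Π_e f‖²`, flat
curvature ⇒ `= ½‖Π∇f‖² + ½ε²‖Vz f‖² + ε⟨f,(k_cm + iS(-γ⁸σ))f⟩` (`Pi_S_mat_Pi` removes the heavy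
spin).  Decompose `f = Σ f_{k'}` under the `2π`-periodic light flow (Parseval).  `k' ≥ 1`: `GapIneq`
fibrewise in `z`.  `k' ≤ 0` (or `ε = 0`): `εk_cm ≥ 0`; `vf_ineq` with fractions `0.7225`
(oscillator `12·0.85 r ε` against `-10 r ε`, `exists_abs_sig`), `0.2` (Hardy `49/4`), `0.0775`
(pair Hardy, field `α^♯⊗Δ_p/M_p²`); `TailIneq` fibrewise with `L = lm‖z‖`.

## NB.  Systems `σ` = partitions of `Fin N` (`E_σ` = block diagonal, block traceless Hermitian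
matrices, `K_σ` = block unitary group), induction on refinement; `Hinf π ⇒ TailIneq, GapIneq` (IH)
for the finer `π`.  `d_j` = distance to `K·⋃_{#π ≤ j} Z_{π/σ}⊗ℝ⁹` (`exists_smooth_dist`, `δ = 1`).
Step 0: cut at `|w_s| ~ η₀ρ²` (homogeneous cut-off); off the valley `½|w_ε|² ≳ η₀²ρ⁴` dominates; the
IMS error `C/ρ²·1_{|w|~η₀ρ²}` is absorbed by applying this to `ρ^{-3}gψ`.  Step `j` (increasing
`j`): `f_j, g_j` = `exists_fg` of `log(d̃_j Lw/(θ_jρ))/log Lw`; the error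
`≤ C/(log²Lw)·1_{θ_jρ/Lw ≤ d̃_j ≤ θ_jρ}/d̃_j²` is charged only to the pieces `i ≥ j`.  Piece `j` lives in
`Ω_j = {|w| < 2η₀ρ², d_{j-1} > θ_{j-1}ρ/(2Lw), d_j < 2θ_jρ, ρ > R}`; `cover` with the family of all
`π` with `j` clusters (nearest point ⇒ `Φ = 0`; if the nearest `π` has fewer clusters contradiction
with `d_{j-1}`).  Gap property and `d_{j-1} ≥ cM_min`, `d_j ≥ ‖l‖/2`, `d_j ≤ ‖l‖ + ‖y‖`: by compactness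
reduce to `η₀ = 0`, where `y = 0`, the blocks are simultaneously diagonalisable and
`hoffman_wielandt` turns `d_j` into a Euclidean clustering distance.  Order of constants:
`β` (all `π`) → `Lw` → `θ_j, κ_j` recursively → `η₀` → `R`.

## L1.  For fixed `φ` diagonalise; `A = εV₀ - adφ`; `vf_ineq` on `ℝ⁸⊗E` with `W = (|A|-1)₊Z`;
`iS_lower` with `B = |A_Θ|`.  `E + 2ε = ½∫f²`, `f = Σ_c(1_{[u_c,u_c+2ε)} - 1_{[u_c+4ε,u_c+6ε)})`.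
Potential lemma: `h_a = #{c : u_c > u_a + ε/2}`-type monotone `h`, `tr(h[Z,Z†]) = Σ(h_a-h_b)|Z_ab|²`.

## L.  `F = tΛ³F̂(φ/Λ)`, `F̂ = ±½|φ̂|²χ̂`, `χ̂ = 1` within `3ℓ` of the chain orbit.  Far from the
chain: `coulomb` gives `(c_ℓ - C√t)Λ`.  Near the chain the classical zero set of `ŵ` is one orbit
`K x̂₀` (`φ̂₀` = chain, `Z_b` = links `|α_c|² = tΣ_{c'≤c}u_{c'}`, other `Z = 0`), `B = dŵ` is injective
on `Y = (𝔨x̂₀)^⊥`, the stabiliser acts trivially.  Cut at `|w| ~ η₀Λ²`.  Linear gauge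
`Φ(x) = (ξ ↦ ⟨ξx₀,x⟩)`, `piola` with `j = 1`.  Quadratic model: `c, B : Y → Θ`, `cᵀB = A₀|_Y`,
`G = |B|`, `ι = icG + B`, `ι*ι = 2G(G ± iA₀)`, `ι*ῑ = 0`, `i𝒴 ι = ιG`, `i𝒴 = ∓iA₀` on the complement;
`Ξ = |A₀| + ιhι* + ῑh̄ῑ*`, `h = (G∓iA₀)(G+|A₀|)⁻¹G⁻¹/2`, is `|𝒴|`, `trΞ = tr|A₀|_Θ + 2tr(G-|A₀|)`;
so `E₀ = ½trG - ¼trΞ = Ecoul(chain) = 0`, `𝒴` invertible (count `dim ker A₀|_Θ = 2 dim ker A₀|_Y`),
the vacuum line `w` (`vac_rank_one`) is killed by `θ(ι y)*` and neutral.  Codimension one bound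
`cΛ` (as in `complete`), `atMostOne_of_codim`; quasi-mode `ψ₀ = ∫ρ(k)⁻¹(G/N)(kx)w dk`, `duality`.

## S.  Sector: invariant under `su(2)_R ⊂ so(4)` (indices 0–3), weight `k` large under the
commuting `L₃`.  `L₃z = Σc_aR_az`, `|c| ≤ 1` ⇒ `Kill`.  `conf_two` + Rellich ⇒ compact form
embedding; the sector is infinite dimensional (`tr([Z₁,Z₂]²)^m ·` vacuum of `γ^{45}` `·` radial
bumps); minimise successively in `𝓥₀ ⊂ 𝓥` (graph space of `Q₀`); `𝓥₀^⊥ = closure span(Uv - v)`.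
-/
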