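import Crest.Agent.R330.IM
import Crest.Agent.R330.IBr
import Crest.Agent.R330.Br.F

/-!
# Row 330: the statement S0512 from its internal form
-/

set_option autoImplicit false
set_option linter.unusedSectionVars false

noncomputable section

open MeasureTheory Filter Topology
open scoped InnerProductSpace ContDiff Matrix
open Crest.MathPhysics.MatrixQM

namespace Crest.Agent.R330

theorem final12 (N : ℕ) (hN : 2 ≤ N)
    (F : Type) [NormedAddCommGroup F] [InnerProductSpace ℂ F] [FiniteDimensional ℂ F]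
    [Nontrivial F] (b : ColorBasis N) (M : FermionRep N F) (R : GaugeAction b M)
    (G : GammaNine) :
    ∃ Ψ₀ ∈ zeroEnergyStates b M R G, ¬ (Ψ₀ =ᵐ[volume] 0) ∧
      ∀ Ψ ∈ zeroEnergyStates b M R G, ∃ c : ℂ, Ψ =ᵐ[volume] c • Ψ₀ := by
  obtain ⟨𝔤, Ms, C, σ, Γ, ρ, e, hirr, hcore, hQ⟩ := bridge hN b M R G
  obtain ⟨⟨Ψ₀, h0, h0'⟩, h1⟩ := main12 C σ hN Ms Γ ρ hirr
  have he : MeasurePreserving e volume volume := e.measurePreserving
  have he' : MeasurePreserving e.symm volume volume := e.symm.measurePreserving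
  have hiff := Br.zero_iff e hcore hQ
  have hc : ∀ Ψ : X (EE N) → F, (Ψ ∘ e.symm) ∘ e = Ψ := fun Ψ => by ext x; simp
  refine ⟨Ψ₀ ∘ e.symm, (hiff _).2 (by rwa [hc]), fun h => h0' ?_, fun Ψ hΨ => ?_⟩
  · have h2 := he.quasiMeasurePreserving.ae_eq_comp h
    rwa [hc] at h2
  · obtain ⟨a, c, hac, h2⟩ := h1 _ h0 _ ((hiff Ψ).1 hΨ)
    have hc0 : c ≠ 0 := by
      rintro rfl
      have ha : a ≠ 0 := by simpa using hac
      refine h0' ?_
      filter_upwards [h2] with x hx
      simpa [ha] using hx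
    refine ⟨-a / c, ?_⟩
    filter_upwards [he'.quasiMeasurePreserving.ae_eq_comp h2] with y hy
    simp only [Function.comp_apply, Pi.add_apply, Pi.smul_apply,
      LinearIsometryEquiv.apply_symm_apply, Pi.zero_apply] at hy ⊢
    have h3 : c • Ψ y = -(a • Ψ₀ (e.symm y)) := eq_neg_of_add_eq_zero_right hy
    rw [← inv_smul_smul₀ hc0 (Ψ y), h3, ← neg_smul, smul_smul, div_eq_inv_mul]

end Crest.Agent.R330

end
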