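import Crest.Agent.R330.IS
import Crest.Agent.R330.IBr
import Crest.Agent.R330.Br.F

/-!
# Row 330: the statement S0513 from its internal form
-/

set_option autoImplicit false
set_option linter.unusedSectionVars false

noncomputable section

open MeasureTheory Filter Topology
open scoped InnerProductSpace ContDiff Matrix
open Crest.MathPhysics.MatrixQM

namespace Crest.Agent.R330

theorem final13
    (F : Type) [NormedAddCommGroup F] [InnerProductSpace ℂ F] [FiniteDimensional ℂ F]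
    [Nontrivial F] (b : ColorBasis 2) (M : FermionRep 2 F) (R : GaugeAction b M)
    (G : GammaNine) :
    ∃ (Ψ : ℕ → Cfg 2 → F) (E : ℕ → ℝ),
      (∀ j k, ∫ x, ⟪Ψ j x, Ψ k x⟫_ℂ = if j = k then (1 : ℂ) else 0) ∧
      (∀ j, 0 < E j) ∧ Tendsto E atTop atTop ∧ ∀ j, IsEigenpair b M R G (E j) (Ψ j) := by
  obtain ⟨𝔤, Ms, C, σ, Γ, ρ, e, hirr, hcore, hQ⟩ := bridge le_rfl b M R G
  obtain ⟨Ψ, En, h1, h2, h3, h4⟩ := main13 C σ Ms
  refine ⟨fun j => Ψ j ∘ e.symm, En, fun j k => ?_, h2, h3, fun j => ?_⟩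
  · rw [← h1, ← Br.integral_comp_e e]
    simp
  · obtain ⟨h5, φ, h, h6, h7, h8, h9, h10⟩ := h4 j
    exact Br.eigen e hcore hQ h5 h6 h7 h8 h9 h10

end Crest.Agent.R330

end
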