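import Crest.Agent.R330.A2.A
import Crest.Agent.R330.A2.B
import Crest.Agent.R330.A2.C
import Crest.Agent.R330.A2.D
import Crest.Agent.R330.A2.E
import Crest.Agent.R330.A2.F
import Crest.Agent.R330.A2.G
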