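import Crest.Agent.R330.B0.A
import Crest.Agent.R330.B0.B
import Crest.Agent.R330.B0.C
import Crest.Agent.R330.B0.D
import Crest.Agent.R330.B0.E
import Crest.Agent.R330.B0.F
import Crest.Agent.R330.B0.G
import Crest.Agent.R330.B0.H
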