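import Crest.Agent.R330.IBF
import Crest.Agent.R330.IBI
import Crest.Agent.R330.IBL
import Crest.Agent.R330.IBU
import Crest.Agent.R330.BM.C

/-!
# Row 330, block BM: the Born–Oppenheimer theorems (interface; statements frozen)
-/

set_option autoImplicit false
set_option linter.unusedSectionVars false

noncomputable section

open MeasureTheory Filter Topology
open scoped InnerProductSpace ContDiff Matrix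
open Crest.MathPhysics.MatrixQM (GammaNine)

namespace Crest.Agent.R330

variable {E Z L H F : Type}
  [NormedAddCommGroup E] [InnerProductSpace ℝ E] [FiniteDimensional ℝ E]
  [NormedAddCommGroup Z] [InnerProductSpace ℝ Z] [FiniteDimensional ℝ Z]
  [NormedAddCommGroup L] [InnerProductSpace ℝ L] [FiniteDimensional ℝ L]
  [NormedAddCommGroup H] [InnerProductSpace ℝ H] [FiniteDimensional ℝ H]
  [NormedAddCommGroup F] [InnerProductSpace ℂ F] [FiniteDimensional ℂ F]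
  [MeasurableSpace E] [BorelSpace E] [MeasurableSpace Z] [BorelSpace Z]
  [MeasurableSpace L] [BorelSpace L] [MeasurableSpace H] [BorelSpace H]
  {P : Type} [Fintype P] {𝔤 : Lie E} (D : Levi 𝔤 Z L H P) (C : Cl (Th E) F) (σ : Spn)

namespace Levi

variable {K : Type} [Group K] [TopologicalSpace K] [IsTopologicalGroup K]
  [CompactSpace K] [MeasurableSpace K] [BorelSpace K] (Γ : Grp 𝔤 K)

/-- Born–Oppenheimer inequality. -/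
theorem bo_main (hT : TailIneq D.𝔩 (D.CL C) σ) (hG : GapIneq D.𝔩 (D.CL C) σ) :
    ∃ c β ε₁ : ℝ, 0 < c ∧ 0 < β ∧ 0 < ε₁ ∧ ∀ κ η : ℝ, 1 ≤ κ → 0 < η → ∃ θ₀ : ℝ, 0 < θ₀ ∧
      ∀ θ, 0 < θ → θ ≤ θ₀ → ∃ p : X E → ℝ, D.FPW κ θ p ∧ ∀ lm, 0 < lm → ∃ R : ℝ,
        ∀ Ω : Set (X E), IsOpen Ω → (∀ k, ∀ x ∈ Ω, Γ.ax k x ∈ Ω) → (∀ x ∈ Ω, R ≤ ‖x‖) →
          D.GapProp κ θ Ω →
          (∀ x ∈ Ω, ‖fderiv ℝ (Γ.avg p) x‖ ≤ η / ‖x‖ * Γ.avg p x) ∧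
          ∀ ε k : ℝ, 0 ≤ ε → ε ≤ ε₁ → ∀ (𝒱 : Wts) (ψ : X E → F), 𝒱.OK → Cls 𝔤 C σ.G 𝒱 ψ →
            (ε = 0 ∨ (0 ≤ k ∧ (V0, k) ∈ 𝒱)) → tsupport ψ ⊆ Ω →
            ∫ x, p x * (D.WL (23 / 20) c β lm ε (D.zc x) (D.lc x) * ‖ψ x‖ ^ 2) ≤
              (1 + η) * ∫ x, p x * ‖Qe 𝔤 C σ ε ψ x‖ ^ 2 :=
  D.bm_main C σ Γ hT hG

/-- Confinement when the rotation laws kill the effective wave function. -/
theorem bo_conf {𝒱 : Wts} (h𝒱 : 𝒱.OK) (hK : D.Kill C σ.G 𝒱) {κ η : ℝ} (hκ : 1 ≤ κ) (hη : 0 < η) :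
    ∃ θ₀ B : ℝ, 0 < θ₀ ∧ 0 < B ∧ ∀ θ, 0 < θ → θ ≤ θ₀ → ∃ p : X E → ℝ, D.FPW κ θ p ∧ ∃ R : ℝ,
      ∀ Ω : Set (X E), IsOpen Ω → (∀ k, ∀ x ∈ Ω, Γ.ax k x ∈ Ω) → (∀ x ∈ Ω, R ≤ ‖x‖) →
        D.GapProp κ θ Ω →
        (∀ x ∈ Ω, ‖fderiv ℝ (Γ.avg p) x‖ ≤ η / ‖x‖ * Γ.avg p x) ∧
        ∀ ψ : X E → F, Cls 𝔤 C σ.G 𝒱 ψ → tsupport ψ ⊆ Ω →
          ∫ x, p x * (‖x‖ * ‖ψ x‖ ^ 2) ≤ B * ∫ x, p x * ‖Qe 𝔤 C σ 0 ψ x‖ ^ 2 :=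
  D.bm_conf C σ Γ h𝒱 hK hκ hη

end Levi

end Crest.Agent.R330

end
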