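import Crest.Agent.R330.INB
import Crest.Agent.R330.IL

/-!
# Row 330, assembly of the internal form of S0512 (interface; statements frozen)
-/

set_option autoImplicit false
set_option linter.unusedSectionVars false

noncomputable section

open MeasureTheory Filter Topology
open scoped InnerProductSpace ContDiff Matrix
open Crest.MathPhysics.MatrixQM (GammaNine)

namespace Crest.Agent.R330

variable {E F : Type} [NormedAddCommGroup E] [InnerProductSpace ℝ E] [FiniteDimensional ℝ E]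
  [MeasurableSpace E] [BorelSpace E]
  [NormedAddCommGroup F] [InnerProductSpace ℂ F] [FiniteDimensional ℂ F]
  {𝔤 : Lie E} (C : Cl (Th E) F) (σ : Spn)

variable {K : Type} [Group K] [TopologicalSpace K] [IsTopologicalGroup K]
  [CompactSpace K] [MeasurableSpace K] [BorelSpace K]

/-- Internal form of S0512. -/
theorem main12 [Nontrivial F] {N : ℕ} (hN : 2 ≤ N) (M : MatSys N 𝔤) (Γ : Grp 𝔤 K)
    (ρ : Rep Γ C) (hirr : C.Irr) :
    NonTriv (SK (flows 𝔤 C σ.G ∅) (Qe 𝔤 C σ 0)) ∧
      AtMostOne (SK (flows 𝔤 C σ.G ∅) (Qe 𝔤 C σ 0)) := by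
  obtain ⟨Λ, hΛ, Fn, hF, hFc, hFi, h1, h2⟩ := large_lambda C σ hN M Γ ρ hirr
  exact limit_zero 𝔤 C σ (hinf_top C σ M) fun ε hε =>
    ray_const 𝔤 C σ (fun ε₁ ε₂ a b => agmon_lower C σ M (by omega) ε₁ ε₂ a b) hΛ hF hFc hFi h1 h2
      ε hε

end Crest.Agent.R330

end
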