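import Crest.Agent.R330.IBM
import Crest.Agent.R330.IH
import Crest.Agent.R330.IMat
import Crest.Agent.R330.NB.E
import Crest.Agent.R330.NB.G
import Crest.Agent.R330.NB.M4

/-!
# Row 330, block NB: the N-body induction (interface; statements frozen)
-/

set_option autoImplicit false
set_option linter.unusedSectionVars false

noncomputable section

open MeasureTheory Filter Topology
open scoped InnerProductSpace ContDiff Matrix
open Crest.MathPhysics.MatrixQM (GammaNine)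

namespace Crest.Agent.R330

variable {E F : Type} [NormedAddCommGroup E] [InnerProductSpace ℝ E] [FiniteDimensional ℝ E]
  [MeasurableSpace E] [BorelSpace E]
  [NormedAddCommGroup F] [InnerProductSpace ℂ F] [FiniteDimensional ℂ F]
  {𝔤 : Lie E} (C : Cl (Th E) F) (σ : Spn)

/-- Hardy inequality at infinity for all block systems. -/
theorem hinf_bsys {N : ℕ} (σ : Spn) (n : ℕ) : ∀ (τ : Lab N), N - τ.ncl = n →
    ∀ (E : Type) [NormedAddCommGroup E] [InnerProductSpace ℝ E] [FiniteDimensional ℝ E]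
      [MeasurableSpace E] [BorelSpace E] (𝔤 : Lie E) (_ : BSys τ 𝔤) (C : Cl (Th E) F),
      Hinf 𝔤 C σ := by
  induction n using Nat.strong_induction_on with
  | _ n ih =>
  classical
  intro τ hn E _ _ _ _ _ 𝔤 B C
  obtain ⟨K, _, _, _, _, _, _, ⟨Γ⟩⟩ := B.exists_grp
  have key : ∀ j, j ≤ N → τ.ncl ≤ j → TT 𝔤 C σ (B.S Γ j) := by
    intro j hj
    induction hj using Nat.decreasingInduction with
    | self => exact fun h => tt_base (B.iCone_S Γ h) (B.valley_subset Γ)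
    | of_succ j hj ihj =>
      intro h
      have h1 : τ.ncl ≤ j + 1 := h.trans (Nat.le_succ j)
      refine tt_step (B.iCone_S Γ h) (B.iCone_S Γ h1) (B.S_mono Γ (Nat.le_succ j)) ?_ (ihj h1)
      refine piece_of_charts (B.iCone_S Γ h) (B.iCone_S Γ h1)
        (ι := {π : Lab N // π.Ref τ ∧ π.ncl = j + 1})
        (fun π => Set.range (liftI 9 (B.levi π.2.1).iZ)) (fun π => ?_) ?_
      · have hH : Hinf (B.levi π.2.1).𝔩 ((B.levi π.2.1).CL C) σ :=
          ih (N - π.1.ncl) (by have := π.2.2; omega) π.1 rfl _ _ (B.sub π.2.1) _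
        exact Levi.chart_main _ (B.geo Γ π.2.1 π.2.2 h) (B.iCone_S Γ h) (B.iCone_S Γ h1)
          (tailIneq_of_hinf _ _ _ hH) (gapIneq_of_hinf _ _ _ hH)
      · rintro s ⟨π, hπ, hc, k, hk⟩
        rcases Nat.lt_or_ge j π.ncl with hlt | hge
        · exact Or.inr ⟨⟨π, hπ, le_antisymm hc hlt⟩, k, (B.mem_range_iZ hπ _).2 hk⟩
        · exact Or.inl ⟨π, hπ, hge, k, hk⟩
  have := key τ.ncl τ.ncl_le le_rfl
  rw [B.S_bot Γ] at this
  exact hinf_of_tt this

/-- Hardy inequality at infinity for `su(N)` (induction over partitions). -/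
theorem hinf_top {N : ℕ} (M : MatSys N 𝔤) : Hinf 𝔤 C σ :=
  hinf_bsys σ _ _ rfl E 𝔤 M.toBSys C

/-- Confinement for `su(2)` in a sector that kills the effective wave function. -/
theorem conf_two (M : MatSys 2 𝔤) {𝒱 : Wts} (h𝒱 : 𝒱.OK)
    (hK : ∀ (Z L H P : Type) [NormedAddCommGroup Z] [InnerProductSpace ℝ Z] [FiniteDimensional ℝ Z]
      [NormedAddCommGroup L] [InnerProductSpace ℝ L] [FiniteDimensional ℝ L]
      [NormedAddCommGroup H] [InnerProductSpace ℝ H] [FiniteDimensional ℝ H] [Fintype P]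
      [MeasurableSpace Z] [BorelSpace Z] [MeasurableSpace L] [BorelSpace L]
      [MeasurableSpace H] [BorelSpace H] (D : Levi 𝔤 Z L H P),
      Module.finrank ℝ Z = 1 → Subsingleton L → D.Kill C σ.G 𝒱) :
    ∃ c R : ℝ, 0 < c ∧ ∀ ψ, Cls 𝔤 C σ.G 𝒱 ψ → (∀ x, ‖x‖ ≤ R → ψ x = 0) →
      c * ∫ x, ‖x‖ * ‖ψ x‖ ^ 2 ≤ ∫ x, ‖Qe 𝔤 C σ 0 ψ x‖ ^ 2 := by
  set B := M.toBSys
  obtain ⟨K, _, _, _, _, _, _, ⟨Γ⟩⟩ := B.exists_grp
  have href : Lab.Ref (id : Lab 2) (fun a : Fin 2 => (⟨0, a.pos⟩ : Fin 2)) := fun _ _ _ => rfl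
  have h1 : Lab.ncl (fun a : Fin 2 => (⟨0, a.pos⟩ : Fin 2)) = 1 := by decide
  have hG := B.geo Γ href (j := 1) Lab.ncl_id h1.le
  have hb := B.S_bot Γ
  rw [h1] at hb
  rw [hb] at hG
  refine Levi.conf_of_levi _ hG (B.iCone_S Γ (by omega)) (B.valley_subset Γ) ?_ h𝒱
    (hK _ _ _ _ _ M.finrank_Zs B.subsingleton_Ls)
  rintro s ⟨π, -, -, k, hk⟩
  refine ⟨k, (B.mem_range_iZ href _).2 fun i => ⟨(hk i).1, fun a b hab => ?_⟩⟩
  rw [show a = b from hab]

end Crest.Agent.R330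

end
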