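import Crest.Agent.R330.INB
import Crest.Agent.R330.IFA
import Crest.Agent.R330.S.Main

/-!
# Row 330, block S: embedded eigenvalues for `su(2)` (interface; statements frozen)
-/

set_option autoImplicit false
set_option linter.unusedSectionVars false

noncomputable section

open MeasureTheory Filter Topology
open scoped InnerProductSpace ContDiff Matrix
open Crest.MathPhysics.MatrixQM (GammaNine)

namespace Crest.Agent.R330

variable {E F : Type} [NormedAddCommGroup E] [InnerProductSpace ℝ E] [FiniteDimensional ℝ E]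
  [MeasurableSpace E] [BorelSpace E]
  [NormedAddCommGroup F] [InnerProductSpace ℂ F] [FiniteDimensional ℂ F]
  {𝔤 : Lie E} (C : Cl (Th E) F) (σ : Spn)

/-- Internal form of S0513. -/
theorem main13 [Nontrivial F] (M : MatSys 2 𝔤) :
    ∃ (Ψ : ℕ → X E → F) (En : ℕ → ℝ),
      (∀ j k, ∫ x, ⟪Ψ j x, Ψ k x⟫_ℂ = if j = k then (1 : ℂ) else 0) ∧
      (∀ j, 0 < En j) ∧ Tendsto En atTop atTop ∧ ∀ j, MemLp (Ψ j) 2 volume ∧
        ∃ (φ : ℕ → X E → F) (h : X E → F), (∀ n, Cls 𝔤 C σ.G ∅ (φ n)) ∧ MemLp h 2 volume ∧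
          Tendsto (fun n => eLpNorm (φ n - Ψ j) 2 volume) atTop (𝓝 0) ∧
          Tendsto (fun n => eLpNorm (Qe 𝔤 C σ 0 (φ n) - h) 2 volume) atTop (𝓝 0) ∧
          ∀ ψ, Cls 𝔤 C σ.G ∅ ψ →
            ∫ x, ⟪h x, Qe 𝔤 C σ 0 ψ x⟫_ℂ = (En j : ℂ) * ∫ x, ⟪Ψ j x, ψ x⟫_ℂ :=
  S.main13' C σ M

end Crest.Agent.R330

end
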